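import Vale.Agent.P038.H504.Rank

/-!
# The core of the proof of the second neighbourhood conjecture (P038, helper504)
-/

open Finset

namespace Vale.Agent.P038.H504

set_option linter.unusedSectionVars false
set_option linter.unusedVariables false

variable {V : Type*} [Fintype V] [DecidableEq V]

/-- Closed out-neighbourhood of a set. -/
def nb (N : V → Finset V) (X : Finset V) : Finset V := X.biUnion N

/-- `c X = |N[X]| - |X|`. -/
def cc (N : V → Finset V) (X : Finset V) : ℤ := ((nb N X).card : ℤ) - (X.card : ℤ)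

theorem mem_nb {N : V → Finset V} {X : Finset V} {v : V} :
    v ∈ nb N X ↔ ∃ x ∈ X, v ∈ N x := by
  simp [nb]

theorem subset_nb {N : V → Finset V} (hr : ∀ v, v ∈ N v) (X : Finset V) : X ⊆ nb N X :=
  fun x hx => mem_nb.2 ⟨x, hx, hr x⟩

theorem nb_mono {N : V → Finset V} {X Y : Finset V} (h : X ⊆ Y) : nb N X ⊆ nb N Y := by
  intro v hv
  obtain ⟨x, hx, hv⟩ := mem_nb.1 hv
  exact mem_nb.2 ⟨x, h hx, hv⟩

theorem nb_union {N : V → Finset V} (X Y : Finset V) : nb N (X ∪ Y) = nb N X ∪ nb N Y := by
  ext v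
  simp only [mem_nb, Finset.mem_union]
  constructor
  · rintro ⟨x, hx | hx, hv⟩
    · exact Or.inl ⟨x, hx, hv⟩
    · exact Or.inr ⟨x, hx, hv⟩
  · rintro (⟨x, hx, hv⟩ | ⟨x, hx, hv⟩)
    · exact ⟨x, Or.inl hx, hv⟩
    · exact ⟨x, Or.inr hx, hv⟩

/-- Submodularity. -/
theorem cc_submod (N : V → Finset V) (X Y : Finset V) :
    cc N (X ∪ Y) + cc N (X ∩ Y) ≤ cc N X + cc N Y := by
  have h1 : ((nb N X ∪ nb N Y).card : ℤ) + (nb N X ∩ nb N Y).card =
      (nb N X).card + (nb N Y).card := by
    exact_mod_cast Finset.card_union_add_card_inter (nb N X) (nb N Y)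
  have h2 : ((X ∪ Y).card : ℤ) + (X ∩ Y).card = X.card + Y.card := by
    exact_mod_cast Finset.card_union_add_card_inter X Y
  have h3 : ((nb N (X ∩ Y)).card : ℤ) ≤ (nb N X ∩ nb N Y).card := by
    exact_mod_cast Finset.card_le_card (Finset.subset_inter (nb_mono Finset.inter_subset_left)
      (nb_mono Finset.inter_subset_right))
  unfold cc
  rw [nb_union]
  linarith

/-- The counterexample condition. -/
def CE (N : V → Finset V) : Prop := ∀ v, (nb N (N v)).card + 1 < 2 * (N v).card

/-- helper294's theorem (G), unweighted form: in a counterexample with the fewest arcs every set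
has a smaller second than first neighbourhood. -/
theorem G_lemma (N : V → Finset V) (hr : ∀ v, v ∈ N v)
    (ha : ∀ u v, v ∈ N u → u ∈ N v → u = v) (hCE : CE N)
    (hmin : ∀ N' : V → Finset V, (∀ v, v ∈ N' v) → (∀ u v, v ∈ N' u → u ∈ N' v → u = v) →
      CE N' → ∑ v, (N v).card ≤ ∑ v, (N' v).card)
    (X : Finset V) (hX : nb N X ≠ X) : cc N (nb N X) < cc N X := by
  classical
  by_contra hcon
  push Not at hcon
  -- L and d
  set L : Finset V := nb N X \ X with hL
  let d : Finset V → ℤ := fun T => ((nb N T \ X).card : ℤ) - 2 * (T.card : ℤ)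
  have hXL : X ⊆ nb N X := subset_nb hr X
  have hLne : L.Nonempty := by
    rw [hL, Finset.sdiff_nonempty]
    intro h
    exact hX (Finset.Subset.antisymm h hXL)
  have hnbL : nb N L \ X = nb N (nb N X) \ X := by
    ext v
    simp only [Finset.mem_sdiff]
    constructor
    · rintro ⟨h1, h2⟩
      exact ⟨nb_mono Finset.sdiff_subset h1, h2⟩
    · rintro ⟨h1, h2⟩
      refine ⟨?_, h2⟩
      obtain ⟨x, hx, hv⟩ := mem_nb.1 h1
      by_cases hxX : x ∈ X
      · have hvL : v ∈ L := by
          rw [hL, Finset.mem_sdiff]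
          exact ⟨mem_nb.2 ⟨x, hxX, hv⟩, h2⟩
        exact subset_nb hr L hvL
      · refine mem_nb.2 ⟨x, ?_, hv⟩
        rw [hL, Finset.mem_sdiff]
        exact ⟨hx, hxX⟩
  have hdL : 0 ≤ d L := by
    have e1 : ((nb N (nb N X) \ X).card : ℤ) = (nb N (nb N X)).card - X.card := by
      rw [Finset.card_sdiff_of_subset (hXL.trans (subset_nb hr _)), Nat.cast_sub
        (Finset.card_le_card (hXL.trans (subset_nb hr _)))]
    have e2 : (L.card : ℤ) = (nb N X).card - X.card := by
      rw [hL, Finset.card_sdiff_of_subset hXL, Nat.cast_sub (Finset.card_le_card hXL)]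
    show 0 ≤ ((nb N L \ X).card : ℤ) - 2 * (L.card : ℤ)
    rw [hnbL, e1, e2]
    unfold cc at hcon
    linarith
  have hd0 : d ∅ = 0 := by
    simp [d, nb]
  -- the minimal proper subset
  obtain ⟨T, hT, hTmin⟩ := Finset.exists_min_image (L.powerset.filter fun T => T ≠ L) d
    ⟨∅, by
      rw [Finset.mem_filter, Finset.mem_powerset]
      exact ⟨Finset.empty_subset _, fun h => (Finset.nonempty_iff_ne_empty.1 hLne) h.symm⟩⟩
  rw [Finset.mem_filter, Finset.mem_powerset] at hT
  obtain ⟨hTL, hTne⟩ := hT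
  have hT0 : d T ≤ 0 := by
    rw [← hd0]
    apply hTmin
    rw [Finset.mem_filter, Finset.mem_powerset]
    exact ⟨Finset.empty_subset _, fun h => (Finset.nonempty_iff_ne_empty.1 hLne) h.symm⟩
  have hTX : Disjoint T X := by
    rw [Finset.disjoint_left]
    intro x hx
    have := hTL hx
    rw [hL, Finset.mem_sdiff] at this
    exact this.2
  have hE : ∀ D' : Finset V, D' ⊆ L → Disjoint T D' →
      2 * (D'.card : ℤ) ≤ ((nb N D' \ (nb N T ∪ X)).card : ℤ) := by
    intro D' hD' hTD
    have h1 : d T ≤ d (T ∪ D') := by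
      by_cases h : T ∪ D' = L
      · rw [h]
        exact hT0.trans hdL
      · apply hTmin
        rw [Finset.mem_filter, Finset.mem_powerset]
        exact ⟨Finset.union_subset hTL hD', h⟩
    have h2 : nb N (T ∪ D') \ X = (nb N T \ X) ∪ (nb N D' \ (nb N T ∪ X)) := by
      rw [nb_union]
      ext v
      simp only [Finset.mem_sdiff, Finset.mem_union]
      tauto
    have h3 : Disjoint (nb N T \ X) (nb N D' \ (nb N T ∪ X)) := by
      rw [Finset.disjoint_left]
      intro v hv hv'
      simp only [Finset.mem_sdiff, Finset.mem_union] at hv hv'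
      tauto
    have h4 : ((T ∪ D').card : ℤ) = T.card + D'.card := by
      rw [Finset.card_union_of_disjoint hTD]
      push_cast
      ring
    have h5 : ((nb N (T ∪ D') \ X).card : ℤ) =
        (nb N T \ X).card + (nb N D' \ (nb N T ∪ X)).card := by
      rw [h2, Finset.card_union_of_disjoint h3]
      push_cast
      ring
    simp only [d] at h1
    rw [h4, h5] at h1
    linarith
  -- the new graph
  let N' : V → Finset V := fun v => if v ∈ X then N v ∩ (X ∪ T) else N v
  have hN'sub : ∀ v, N' v ⊆ N v := by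
    intro v
    simp only [N']
    split_ifs
    · exact Finset.inter_subset_left
    · exact Finset.Subset.refl _
  have hN'r : ∀ v, v ∈ N' v := by
    intro v
    simp only [N']
    split_ifs with h
    · rw [Finset.mem_inter, Finset.mem_union]
      exact ⟨hr v, Or.inl h⟩
    · exact hr v
  have hN'a : ∀ u v, v ∈ N' u → u ∈ N' v → u = v := fun u v h1 h2 =>
    ha u v (hN'sub u h1) (hN'sub v h2)
  have hN'CE : CE N' := by
    intro v
    have hnb' : ∀ S : Finset V, nb N' S ⊆ nb N S := by
      intro S w hw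
      obtain ⟨x, hx, hw⟩ := mem_nb.1 hw
      exact mem_nb.2 ⟨x, hx, hN'sub x hw⟩
    by_cases hv : v ∈ X ∧ (N v \ (X ∪ T)).Nonempty
    · obtain ⟨hvX, hDne⟩ := hv
      set Dv := N v \ (X ∪ T) with hDv
      have hDvL : Dv ⊆ L := by
        intro x hx
        rw [hDv, Finset.mem_sdiff, Finset.mem_union, not_or] at hx
        rw [hL, Finset.mem_sdiff]
        exact ⟨mem_nb.2 ⟨v, hvX, hx.1⟩, hx.2.1⟩
      have hTD : Disjoint T Dv := by
        rw [Finset.disjoint_left]
        intro x hx hx'
        rw [hDv, Finset.mem_sdiff, Finset.mem_union, not_or] at hx'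
        exact hx'.2.2 hx
      have hEv := hE Dv hDvL hTD
      have hN'v : N' v = N v ∩ (X ∪ T) := by
        simp only [N']
        rw [if_pos hvX]
      have hcard1 : ((N' v).card : ℤ) = (N v).card - Dv.card := by
        have h := Finset.card_inter_add_card_sdiff (N v) (X ∪ T)
        rw [hN'v, hDv]
        have h' : ((N v ∩ (X ∪ T)).card : ℤ) + ((N v \ (X ∪ T)).card : ℤ) = ((N v).card : ℤ) := by
          exact_mod_cast h
        linarith
      have hsub : nb N' (N' v) ⊆ nb N (N v) \ (nb N Dv \ (nb N T ∪ X)) := by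
        intro w hw
        obtain ⟨x, hx, hwx⟩ := mem_nb.1 hw
        rw [hN'v, Finset.mem_inter, Finset.mem_union] at hx
        rw [Finset.mem_sdiff]
        refine ⟨mem_nb.2 ⟨x, hx.1, hN'sub x hwx⟩, ?_⟩
        intro hw'
        rw [Finset.mem_sdiff, Finset.mem_union, not_or] at hw'
        rcases hx.2 with hxX | hxT
        · have : w ∈ N x ∩ (X ∪ T) := by
            simp only [N'] at hwx
            rw [if_pos hxX] at hwx
            exact hwx
          rw [Finset.mem_inter, Finset.mem_union] at this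
          rcases this.2 with h | h
          · exact hw'.2.2 h
          · exact hw'.2.1 (subset_nb hr T h)
        · exact hw'.2.1 (mem_nb.2 ⟨x, hxT, hN'sub x hwx⟩)
      have hEsub : nb N Dv \ (nb N T ∪ X) ⊆ nb N (N v) :=
        Finset.sdiff_subset.trans (nb_mono Finset.sdiff_subset)
      have hcard2 : ((nb N' (N' v)).card : ℤ) ≤
          (nb N (N v)).card - (nb N Dv \ (nb N T ∪ X)).card := by
        have h := Finset.card_le_card hsub
        rw [Finset.card_sdiff_of_subset hEsub] at h
        have h'' := Finset.card_le_card hEsub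
        have h' : ((nb N' (N' v)).card : ℤ) ≤
            (((nb N (N v)).card - (nb N Dv \ (nb N T ∪ X)).card : ℕ) : ℤ) := by
          exact_mod_cast h
        rw [Nat.cast_sub h''] at h'
        exact h'
      have hF := hCE v
      have hF' : ((nb N (N v)).card : ℤ) + 1 < 2 * (N v).card := by exact_mod_cast hF
      have : ((nb N' (N' v)).card : ℤ) + 1 < 2 * (N' v).card := by
        rw [hcard1]
        linarith
      exact_mod_cast this
    · have hN'v : N' v = N v := by
        simp only [N']
        split_ifs with h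
        · rw [Finset.inter_eq_left]
          rw [not_and, Finset.not_nonempty_iff_eq_empty, Finset.sdiff_eq_empty_iff_subset] at hv
          exact hv h
        · rfl
      rw [hN'v]
      exact lt_of_le_of_lt (Nat.add_le_add_right (Finset.card_le_card (hnb' _)) 1) (hCE v)
  -- strictly fewer arcs
  have hlt : ∑ v, (N' v).card < ∑ v, (N v).card := by
    obtain ⟨l, hlL, hlT⟩ : ∃ l, l ∈ L ∧ l ∉ T := by
      by_contra h
      push Not at h
      exact hTne (Finset.Subset.antisymm hTL h)
    have hlL' := hlL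
    rw [hL, Finset.mem_sdiff] at hlL'
    obtain ⟨hl1, hl2⟩ := hlL'
    obtain ⟨x, hx, hlx⟩ := mem_nb.1 hl1
    apply Finset.sum_lt_sum
    · intro v _
      exact Finset.card_le_card (hN'sub v)
    · refine ⟨x, Finset.mem_univ _, Finset.card_lt_card ?_⟩
      rw [Finset.ssubset_iff_of_subset (hN'sub x)]
      refine ⟨l, hlx, ?_⟩
      simp only [N']
      rw [if_pos hx, Finset.mem_inter, Finset.mem_union]
      tauto
  exact absurd (hmin N' hN'r hN'a hN'CE) (not_le.2 hlt)

/-- Compatible pairs of families. -/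
def Compat (N : V → Finset V) (X Y : V → Finset V) : Prop :=
  (∀ a, a ∈ X a) ∧ (∀ a, a ∈ Y a) ∧
    ∀ a b, a ≠ b → b ∈ nb N (X a) → a ∈ nb N (Y b) → False

/-- Disjoint pairs of families which contain the arcs. -/
def Disj (N : V → Finset V) (B C : V → Finset V) : Prop :=
  (∀ z, N z ⊆ B z) ∧ (∀ y, N y ⊆ C y) ∧ ∀ z y, z ≠ y → y ∈ B z → z ∈ C y → False

/-- The energy. -/
def en (N : V → Finset V) (X Y : V → Finset V) : ℤ := ∑ a, cc N (X a) + ∑ b, cc N (Y b)

/-- Intersection of the family over the closed in-neighbourhood. -/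
def inn (N : V → Finset V) (B : V → Finset V) (z : V) : Finset V :=
  univ.filter fun y => ∀ z0, z ∈ N z0 → y ∈ B z0

theorem mem_inn {N B : V → Finset V} {z y : V} :
    y ∈ inn N B z ↔ ∀ z0, z ∈ N z0 → y ∈ B z0 := by
  simp [inn]

theorem Disj.symm {N B C : V → Finset V} (h : Disj N B C) : Disj N C B :=
  ⟨h.2.1, h.1, fun z y hzy h1 h2 => h.2.2 y z (Ne.symm hzy) h2 h1⟩

theorem en_comm (N X Y : V → Finset V) : en N X Y = en N Y X := by
  unfold en
  ring

theorem compat_inn {N B C : V → Finset V} (hr : ∀ v, v ∈ N v) (h : Disj N B C) :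
    Compat N (inn N B) (inn N C) := by
  refine ⟨fun a => mem_inn.2 fun z0 hz0 => h.1 z0 hz0,
    fun a => mem_inn.2 fun z0 hz0 => h.2.1 z0 hz0, ?_⟩
  intro z y hzy h1 h2
  obtain ⟨y0, hy0, hy⟩ := mem_nb.1 h1
  obtain ⟨z0, hz0, hz⟩ := mem_nb.1 h2
  rw [mem_inn] at hy0 hz0
  have hb := hy0 z0 hz
  have hc := hz0 y0 hy
  by_cases hne : z0 = y0
  · subst hne
    -- z0 -> z, z0 -> y
    have h3 : z0 = z := by
      by_contra h4
      exact h.2.2 z z0 (Ne.symm h4) (hy0 z (hr z)) (h.2.1 z0 hz)
    have h5 : z0 = y := by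
      by_contra h4
      exact h.2.2 z0 y h4 (h.1 z0 hy) (hz0 y (hr y))
    exact hzy (h3.symm.trans h5)
  · exact h.2.2 z0 y0 hne hb hc

/-- Intersecting with sets that are minimal for additions does not increase `c`. -/
theorem inter_fam (N : V → Finset V) (fam : V → Finset V) (K : Finset V) (s : Finset V)
    (h : ∀ y ∈ s, ∀ K' ⊆ K, cc N (fam y) ≤ cc N (fam y ∪ K')) :
    cc N (K.filter fun z => ∀ y ∈ s, z ∈ fam y) ≤ cc N K := by
  classical
  induction s using Finset.induction_on with
  | empty => simp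
  | insert y s hy ih =>
    have h1 := ih fun y' hy' => h y' (Finset.mem_insert_of_mem hy')
    set K1 := K.filter fun z => ∀ y ∈ s, z ∈ fam y with hK1
    have h2 : (K.filter fun z => ∀ y' ∈ insert y s, z ∈ fam y') = fam y ∩ K1 := by
      ext v
      simp only [hK1, Finset.mem_filter, Finset.mem_inter, Finset.mem_insert, forall_eq_or_imp]
      tauto
    have h3 := cc_submod N (fam y) K1
    have h4 := h y (Finset.mem_insert_self _ _) K1 (Finset.filter_subset _ _)
    rw [h2]
    linarith

theorem hallQ {N B C : V → Finset V} (hr : ∀ v, v ∈ N v) (h : Disj N B C)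
    (hmin : ∀ B' C', Disj N B' C' → en N B C ≤ en N B' C')
    (y' : V) (D : Finset V) (hD : ∀ z ∈ D, y' ∉ nb N (B z) ∧ z ∉ inn N C y') :
    D.card ≤ ((D.biUnion N).filter fun z' =>
      y' ∉ nb N (inn N B z') ∧ z' ∉ nb N (inn N C y')).card := by
  classical
  set I := inn N C y' with hI
  have hadd : ∀ y ∈ (univ.filter fun y => y' ∈ N y), ∀ K' ⊆ I ∪ D,
      cc N (C y) ≤ cc N (C y ∪ K') := by
    intro y hy K' hK'
    rw [Finset.mem_filter] at hy
    have hy := hy.2
    have hd : Disj N B (Function.update C y (C y ∪ K')) := by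
      refine ⟨h.1, ?_, ?_⟩
      · intro v
        by_cases hv : v = y
        · subst hv
          rw [Function.update_self]
          exact (h.2.1 v).trans Finset.subset_union_left
        · rw [Function.update_of_ne hv]
          exact h.2.1 v
      · intro z v hzv h1 h2
        by_cases hv : v = y
        · subst hv
          rw [Function.update_self, Finset.mem_union] at h2
          rcases h2 with h2 | h2
          · exact h.2.2 z v hzv h1 h2
          · rcases Finset.mem_union.1 (hK' h2) with h3 | h3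
            · exact h.2.2 z v hzv h1 (mem_inn.1 h3 v hy)
            · exact (hD z h3).1 (mem_nb.2 ⟨v, h1, hy⟩)
        · rw [Function.update_of_ne hv] at h2
          exact h.2.2 z v hzv h1 h2
    have h1 := hmin _ _ hd
    unfold en at h1
    rw [← Finset.add_sum_erase univ (fun b => cc N (C b)) (Finset.mem_univ y),
      ← Finset.add_sum_erase univ (fun b => cc N (Function.update C y (C y ∪ K') b))
        (Finset.mem_univ y)] at h1
    have h2 : ∑ x ∈ univ.erase y, cc N (Function.update C y (C y ∪ K') x) =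
        ∑ x ∈ univ.erase y, cc N (C x) := by
      refine Finset.sum_congr rfl fun x hx => ?_
      rw [Function.update_of_ne (Finset.ne_of_mem_erase hx)]
    simp only [Function.update_self] at h1
    rw [h2] at h1
    linarith
  have hfam := inter_fam N C (I ∪ D) (univ.filter fun y => y' ∈ N y) hadd
  have hfil : ((I ∪ D).filter fun z => ∀ y ∈ (univ.filter fun y => y' ∈ N y), z ∈ C y) = I := by
    ext v
    simp only [Finset.mem_filter, Finset.mem_union, Finset.mem_univ, true_and]
    constructor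
    · rintro ⟨_, h1⟩
      rw [hI, mem_inn]
      exact h1
    · intro hv
      exact ⟨Or.inl hv, fun y hy => mem_inn.1 hv y hy⟩
  rw [hfil] at hfam
  have hdisj : Disjoint I D := by
    rw [Finset.disjoint_left]
    intro v hv hv'
    exact (hD v hv').2 hv
  have hc1 : ((I ∪ D).card : ℤ) = I.card + D.card := by
    rw [Finset.card_union_of_disjoint hdisj]
    push_cast
    ring
  have hc2 : nb N (I ∪ D) = nb N I ∪ (nb N D \ nb N I) := by
    rw [nb_union, Finset.union_sdiff_self_eq_union]
  have hc3 : ((nb N (I ∪ D)).card : ℤ) = (nb N I).card + (nb N D \ nb N I).card := by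
    rw [hc2, Finset.card_union_of_disjoint Finset.disjoint_sdiff]
    push_cast
    ring
  have h5 : (D.card : ℤ) ≤ (nb N D \ nb N I).card := by
    unfold cc at hfam
    rw [hc1, hc3] at hfam
    linarith
  have h6 : D.card ≤ (nb N D \ nb N I).card := by exact_mod_cast h5
  refine h6.trans (Finset.card_le_card ?_)
  intro z' hz'
  rw [Finset.mem_sdiff] at hz'
  rw [Finset.mem_filter]
  refine ⟨hz'.1, ?_, hz'.2⟩
  intro h7
  obtain ⟨z, hz, hzz'⟩ := mem_nb.1 hz'.1
  refine (hD z hz).1 ?_
  refine nb_mono ?_ h7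
  intro x hx
  exact mem_inn.1 hx z hzz'

/-- The identity for one pair of vertices. -/
theorem pair_id (b c nB nC x u nX nY : Prop) [Decidable b] [Decidable c] [Decidable nB]
    [Decidable nC] [Decidable x] [Decidable u] [Decidable nX] [Decidable nY]
    (h1 : ¬ (b ∧ c)) (h2 : ¬ (nX ∧ nY)) (h3 : x → ¬ nC) (h4 : u → ¬ nB) :
    ((if nB then (1 : ℤ) else 0) - (if b then 1 else 0) + ((if nC then 1 else 0) -
      (if c then 1 else 0))) -
    ((if nX then (1 : ℤ) else 0) - (if x then 1 else 0) + ((if nY then 1 else 0) -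
      (if u then 1 else 0))) =
    (if ¬ b ∧ ¬ c then (1 : ℤ) else 0) + (if ¬ nX ∧ ¬ nY then 1 else 0) -
      (if ¬ nC ∧ ¬ x then 1 else 0) - (if ¬ nB ∧ ¬ u then 1 else 0) := by
  by_cases hb : b <;> by_cases hc : c <;> by_cases hnB : nB <;> by_cases hnC : nC <;>
    by_cases hx : x <;> by_cases hu : u <;> by_cases hnX : nX <;> by_cases hnY : nY <;>
    simp_all

theorem card_eq_ind (s : Finset V) : (s.card : ℤ) = ∑ y : V, if y ∈ s then (1 : ℤ) else 0 := by
  simp

theorem cc_eq_ind (N : V → Finset V) (s : Finset V) :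
    cc N s = ∑ y : V, ((if y ∈ nb N s then (1 : ℤ) else 0) - (if y ∈ s then 1 else 0)) := by
  rw [Finset.sum_sub_distrib, ← card_eq_ind, ← card_eq_ind, cc]

theorem en_eq_ind (N X Y : V → Finset V) :
    en N X Y = ∑ z : V, ∑ y : V, (((if y ∈ nb N (X z) then (1 : ℤ) else 0) -
      (if y ∈ X z then 1 else 0)) + ((if z ∈ nb N (Y y) then (1 : ℤ) else 0) -
      (if z ∈ Y y then 1 else 0))) := by
  unfold en
  simp only [Finset.sum_add_distrib]
  congr 1
  · exact Finset.sum_congr rfl fun z _ => cc_eq_ind N (X z)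
  · rw [Finset.sum_comm]
    exact Finset.sum_congr rfl fun y _ => cc_eq_ind N (Y y)

theorem card_filter_prod (p : V → V → Prop) [∀ z y, Decidable (p z y)] :
    ((univ.filter fun x : V × V => p x.1 x.2).card : ℤ) =
      ∑ z : V, ∑ y : V, if p z y then (1 : ℤ) else 0 := by
  rw [← Fintype.sum_prod_type (f := fun x : V × V => if p x.1 x.2 then (1 : ℤ) else 0)]
  simp

/-- The main step: the intersection families have at most the energy of a minimal disjoint
pair. -/
theorem en_inn_le {N B C : V → Finset V} (hr : ∀ v, v ∈ N v) (h : Disj N B C)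
    (hmin : ∀ B' C', Disj N B' C' → en N B C ≤ en N B' C') :
    en N (inn N B) (inn N C) ≤ en N B C := by
  classical
  have hcomp := compat_inn hr h
  let Z : Finset (V × V) := univ.filter fun x => x.2 ∉ B x.1 ∧ x.1 ∉ C x.2
  let Z' : Finset (V × V) := univ.filter fun x =>
    x.2 ∉ nb N (inn N B x.1) ∧ x.1 ∉ nb N (inn N C x.2)
  let P : Finset (V × V) := univ.filter fun x => x.1 ∉ nb N (C x.2) ∧ x.2 ∉ inn N B x.1
  let Q : Finset (V × V) := univ.filter fun x => x.2 ∉ nb N (B x.1) ∧ x.1 ∉ inn N C x.2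
  have hsubB : ∀ z z', z' ∈ N z → inn N B z' ⊆ B z := fun z z' hz x hx => mem_inn.1 hx z hz
  have hsubC : ∀ z z', z' ∈ N z → inn N C z' ⊆ C z := fun z z' hz x hx => mem_inn.1 hx z hz
  have hcount : P.card + Q.card ≤ Z.card + Z'.card := by
    apply card_add_card_le N P Q Z Z'
    · intro z z' y y' hp hq hz hy
      simp only [P, Q, Z, Z', Finset.mem_filter, Finset.mem_univ, true_and] at hp hq ⊢
      refine ⟨⟨fun hb => hq.1 (mem_nb.2 ⟨y, hb, hy⟩), fun hc => hp.1 (mem_nb.2 ⟨z, hc, hz⟩)⟩,
        fun h1 => hq.1 (nb_mono (hsubB z z' hz) h1), fun h1 => hp.1 (nb_mono (hsubC y y' hy) h1)⟩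
    · intro y' D hD
      have := hallQ hr h hmin y' D (fun z hz => by
        have := hD z hz
        simpa only [Q, Finset.mem_filter, Finset.mem_univ, true_and] using this)
      simpa only [Z', Finset.mem_filter, Finset.mem_univ, true_and] using this
    · intro z' D hD
      have := hallQ hr h.symm (fun B' C' hd => by
        rw [en_comm N C B, en_comm N B' C']
        exact hmin _ _ hd.symm) z' D (fun y hy => by
        have := hD y hy
        simpa only [P, Finset.mem_filter, Finset.mem_univ, true_and] using this)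
      refine this.trans (Finset.card_le_card ?_)
      intro x hx
      simp only [Z', Finset.mem_filter, Finset.mem_univ, true_and] at hx ⊢
      exact ⟨hx.1, hx.2.2, hx.2.1⟩
  have hid : en N B C - en N (inn N B) (inn N C) =
      (Z.card : ℤ) + Z'.card - P.card - Q.card := by
    rw [en_eq_ind, en_eq_ind]
    have e1 : (Z.card : ℤ) = ∑ z : V, ∑ y : V, if y ∉ B z ∧ z ∉ C y then (1 : ℤ) else 0 :=
      card_filter_prod fun z y => y ∉ B z ∧ z ∉ C y
    have e2 : (Z'.card : ℤ) = ∑ z : V, ∑ y : V,
        if y ∉ nb N (inn N B z) ∧ z ∉ nb N (inn N C y) then (1 : ℤ) else 0 :=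
      card_filter_prod fun z y => y ∉ nb N (inn N B z) ∧ z ∉ nb N (inn N C y)
    have e3 : (P.card : ℤ) = ∑ z : V, ∑ y : V,
        if z ∉ nb N (C y) ∧ y ∉ inn N B z then (1 : ℤ) else 0 :=
      card_filter_prod fun z y => z ∉ nb N (C y) ∧ y ∉ inn N B z
    have e4 : (Q.card : ℤ) = ∑ z : V, ∑ y : V,
        if y ∉ nb N (B z) ∧ z ∉ inn N C y then (1 : ℤ) else 0 :=
      card_filter_prod fun z y => y ∉ nb N (B z) ∧ z ∉ inn N C y
    rw [e1, e2, e3, e4]
    simp only [← Finset.sum_sub_distrib, ← Finset.sum_add_distrib]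
    refine Finset.sum_congr rfl fun z _ => Finset.sum_congr rfl fun y _ => ?_
    by_cases hzy : z = y
    · subst hzy
      have hb : z ∈ B z := h.1 z (hr z)
      have hc : z ∈ C z := h.2.1 z (hr z)
      have hx : z ∈ inn N B z := hcomp.1 z
      have hu : z ∈ inn N C z := hcomp.2.1 z
      have hnB : z ∈ nb N (B z) := subset_nb hr _ hb
      have hnC : z ∈ nb N (C z) := subset_nb hr _ hc
      have hnX : z ∈ nb N (inn N B z) := subset_nb hr _ hx
      have hnY : z ∈ nb N (inn N C z) := subset_nb hr _ hu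
      simp [hb, hc, hx, hu, hnB, hnC, hnX, hnY]
    · apply pair_id
      · rintro ⟨h1, h2⟩
        exact h.2.2 z y hzy h1 h2
      · rintro ⟨h1, h2⟩
        exact hcomp.2.2 z y hzy h1 h2
      · -- y in inn B z, z in nb (C y)
        intro h1 h2
        obtain ⟨z0, hz0, hz⟩ := mem_nb.1 h2
        have h3 := mem_inn.1 h1 z0 hz
        by_cases h4 : z0 = y
        · subst h4
          exact h.2.2 z z0 hzy (mem_inn.1 h1 z (hr z)) (h.2.1 z0 hz)
        · exact h.2.2 z0 y h4 h3 hz0
      · intro h1 h2
        obtain ⟨y0, hy0, hy⟩ := mem_nb.1 h2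
        have h3 := mem_inn.1 h1 y0 hy
        by_cases h4 : z = y0
        · subst h4
          exact h.2.2 z y hzy (h.1 z hy) (mem_inn.1 h1 y (hr y))
        · exact h.2.2 z y0 h4 hy0 h3
  have hcount' : (P.card : ℤ) + Q.card ≤ Z.card + Z'.card := by exact_mod_cast hcount
  linarith

/-- There is no relation `N` with all these properties. -/
theorem no_ce [Nonempty V] (N : V → Finset V) (hr : ∀ v, v ∈ N v)
    (ha : ∀ u v, v ∈ N u → u ∈ N v → u = v) (hout : ∀ v, ∃ u ∈ N v, u ≠ v)
    (hG : ∀ X : Finset V, nb N X ≠ X → cc N (nb N X) < cc N X) : False := by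
  classical
  -- minimal compatible pair
  have hne : (univ.filter fun p : (V → Finset V) × (V → Finset V) =>
      Compat N p.1 p.2).Nonempty := by
    refine ⟨(fun a => {a}, fun a => {a}), ?_⟩
    rw [Finset.mem_filter]
    refine ⟨Finset.mem_univ _, fun a => Finset.mem_singleton_self a,
      fun a => Finset.mem_singleton_self a, ?_⟩
    intro a b hab h1 h2
    obtain ⟨x, hx, hbx⟩ := mem_nb.1 h1
    obtain ⟨y, hy, hay⟩ := mem_nb.1 h2
    have hx' : x = a := Finset.mem_singleton.1 hx
    have hy' : y = b := Finset.mem_singleton.1 hy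
    rw [hx'] at hbx
    rw [hy'] at hay
    exact hab (ha _ _ hbx hay)
  obtain ⟨⟨X, Y⟩, hXY, hXYmin⟩ := Finset.exists_min_image _ (fun p => en N p.1 p.2) hne
  rw [Finset.mem_filter] at hXY
  replace hXY := hXY.2
  dsimp only at hXY hXYmin
  have hXYmin' : ∀ X' Y', Compat N X' Y' → en N X Y ≤ en N X' Y' := fun X' Y' h =>
    hXYmin (X', Y') (by rw [Finset.mem_filter]; exact ⟨Finset.mem_univ _, h⟩)
  have hd0 : Disj N (fun z => nb N (X z)) (fun y => nb N (Y y)) := by
    refine ⟨?_, ?_, ?_⟩
    · intro z x hx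
      exact mem_nb.2 ⟨z, hXY.1 z, hx⟩
    · intro z x hx
      exact mem_nb.2 ⟨z, hXY.2.1 z, hx⟩
    · intro z y hzy h1 h2
      exact hXY.2.2 z y hzy h1 h2
  have hle : ∀ S : Finset V, cc N (nb N S) ≤ cc N S := by
    intro S
    by_cases hS : nb N S = S
    · rw [hS]
    · exact (hG S hS).le
  have hstrict : ∃ z, nb N (X z) ≠ X z := by
    by_contra hcl
    push Not at hcl
    obtain ⟨K, hK, hKmin⟩ := Finset.exists_min_image
      (univ.filter fun K : Finset V => K.Nonempty ∧ nb N K = K) Finset.card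
      ⟨univ, by
        rw [Finset.mem_filter]
        exact ⟨Finset.mem_univ _, Finset.univ_nonempty,
          Finset.Subset.antisymm (Finset.subset_univ _) (subset_nb hr _)⟩⟩
    rw [Finset.mem_filter] at hK
    obtain ⟨-, ⟨a, haK⟩, hKcl⟩ := hK
    obtain ⟨b, hb, hba⟩ := hout a
    have hbK : b ∈ K := by
      rw [← hKcl]
      exact mem_nb.2 ⟨a, haK, hb⟩
    have hint : nb N (K ∩ X b) = K ∩ X b := by
      apply Finset.Subset.antisymm
      · intro v hv
        obtain ⟨x, hx, hv⟩ := mem_nb.1 hv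
        rw [Finset.mem_inter] at hx ⊢
        constructor
        · rw [← hKcl]
          exact mem_nb.2 ⟨x, hx.1, hv⟩
        · rw [← hcl b]
          exact mem_nb.2 ⟨x, hx.2, hv⟩
      · exact subset_nb hr _
    have hcard := hKmin (K ∩ X b) (by
      rw [Finset.mem_filter]
      exact ⟨Finset.mem_univ _, ⟨b, Finset.mem_inter.2 ⟨hbK, hXY.1 b⟩⟩, hint⟩)
    have hKX : K ∩ X b = K := Finset.eq_of_subset_of_card_le Finset.inter_subset_left hcard
    have haX : a ∈ X b := by
      have : a ∈ K ∩ X b := by rw [hKX]; exact haK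
      exact (Finset.mem_inter.1 this).2
    exact hXY.2.2 b a hba (subset_nb hr _ haX) (mem_nb.2 ⟨a, hXY.2.1 a, hb⟩)
  have hlt : en N (fun z => nb N (X z)) (fun y => nb N (Y y)) < en N X Y := by
    unfold en
    apply add_lt_add_of_lt_of_le
    · apply Finset.sum_lt_sum
      · intro z _
        exact hle _
      · obtain ⟨z, hz⟩ := hstrict
        exact ⟨z, Finset.mem_univ _, hG _ hz⟩
    · exact Finset.sum_le_sum fun y _ => hle _
  -- minimal disjoint pair
  obtain ⟨⟨B, C⟩, hBC, hBCmin⟩ := Finset.exists_min_image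
    (univ.filter fun p : (V → Finset V) × (V → Finset V) => Disj N p.1 p.2)
    (fun p => en N p.1 p.2)
    ⟨(fun z => nb N (X z), fun y => nb N (Y y)), by
      rw [Finset.mem_filter]
      exact ⟨Finset.mem_univ _, hd0⟩⟩
  rw [Finset.mem_filter] at hBC
  replace hBC := hBC.2
  dsimp only at hBC hBCmin
  have hBCmin' : ∀ B' C', Disj N B' C' → en N B C ≤ en N B' C' := fun B' C' h =>
    hBCmin (B', C') (by rw [Finset.mem_filter]; exact ⟨Finset.mem_univ _, h⟩)
  have h1 := en_inn_le hr hBC hBCmin'
  have h2 := hXYmin' _ _ (compat_inn hr hBC)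
  have h3 := hBCmin' _ _ hd0
  linarith

/-- No counterexample, in terms of closed out-neighbourhoods. -/
theorem no_CE [Nonempty V] (N : V → Finset V) (hr : ∀ v, v ∈ N v)
    (ha : ∀ u v, v ∈ N u → u ∈ N v → u = v) (hCE : CE N) : False := by
  classical
  obtain ⟨M, hM, hMmin⟩ := Finset.exists_min_image
    (univ.filter fun M : V → Finset V => (∀ v, v ∈ M v) ∧
      (∀ u v, v ∈ M u → u ∈ M v → u = v) ∧ CE M) (fun M => ∑ v, (M v).card)
    ⟨N, by
      rw [Finset.mem_filter]
      exact ⟨Finset.mem_univ _, hr, ha, hCE⟩⟩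
  rw [Finset.mem_filter] at hM
  obtain ⟨-, hMr, hMa, hMCE⟩ := hM
  refine no_ce M hMr hMa ?_ (G_lemma M hMr hMa hMCE ?_)
  · intro v
    have h1 := hMCE v
    have h2 : (M v).card ≤ (nb M (M v)).card := Finset.card_le_card (subset_nb hMr _)
    have h3 : 1 < (M v).card := by omega
    obtain ⟨u, hu, huv⟩ := Finset.exists_mem_ne h3 v
    exact ⟨u, hu, huv⟩
  · intro N' h1 h2 h3
    exact hMmin N' (by
      rw [Finset.mem_filter]
      exact ⟨Finset.mem_univ _, h1, h2, h3⟩)

end Vale.Agent.P038.H504
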