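import Mathlib

/-!
# A rank count for a generic square complex (P038, helper504)

`card_add_card_le`: four sets `P, Q, Z, Z'` of pairs of vertices which satisfy the key property
(a square of arcs with corners in `P` and `Q` has its other two corners in `Z` and `Z'`) and two
Hall conditions satisfy `|P| + |Q| ≤ |Z| + |Z'|`.
-/

open Finset

namespace Vale.Agent.P038.H504

set_option linter.unusedSectionVars false

variable {V : Type*} [Fintype V] [DecidableEq V]

/-- The field of rational functions in one variable for each pair of vertices. -/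
abbrev GK (V : Type*) := FractionRing (MvPolynomial (V × V) ℚ)

/-- The generic matrix supported on the arcs (and loops) `v ∈ N u`. -/
noncomputable def gen (N : V → Finset V) (u v : V) : GK V :=
  if v ∈ N u then algebraMap (MvPolynomial (V × V) ℚ) (GK V) (MvPolynomial.X (u, v)) else 0

/-- Under Hall's condition the generic rows are linearly independent. -/
theorem hall_inj (N : V → Finset V) (D T : Finset V)
    (hall : ∀ D' ⊆ D, D'.card ≤ ((D'.biUnion N) ∩ T).card)
    (f : V → GK V) (h : ∀ t ∈ T, ∑ z ∈ D, f z * gen N z t = 0) : ∀ z ∈ D, f z = 0 := by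
  classical
  have hH : ∀ s : Finset {z // z ∈ D}, s.card ≤ (s.biUnion fun z => N z.1 ∩ T).card := by
    intro s
    have h1 := hall (s.map (Function.Embedding.subtype _)) (by
      intro x hx
      simp only [Finset.mem_map, Function.Embedding.coe_subtype] at hx
      obtain ⟨a, _, rfl⟩ := hx
      exact a.2)
    rw [Finset.card_map] at h1
    refine h1.trans (Finset.card_le_card ?_)
    intro x hx
    simp only [Finset.mem_inter, Finset.mem_biUnion, Finset.mem_map,
      Function.Embedding.coe_subtype] at hx ⊢
    obtain ⟨⟨a, ⟨b, hb, rfl⟩, ha⟩, hT⟩ := hx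
    exact ⟨b, hb, ha, hT⟩
  obtain ⟨m, hm, hmem⟩ :=
    (Finset.all_card_le_biUnion_card_iff_exists_injective
      (fun z : {z // z ∈ D} => N z.1 ∩ T)).1 hH
  -- the polynomial matrix
  let M0 : Matrix {z // z ∈ D} {z // z ∈ D} (MvPolynomial (V × V) ℚ) :=
    Matrix.of fun i j => if m j ∈ N i.1 then MvPolynomial.X (i.1, m j) else 0
  have hdet0 : M0.det ≠ 0 := by
    intro h0
    let e : V × V → ℚ := fun p => if ∃ i : {z // z ∈ D}, p = (i.1, m i) then 1 else 0
    have h1 : (MvPolynomial.eval e) M0.det = 0 := by rw [h0, map_zero]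
    rw [RingHom.map_det] at h1
    have h2 : (MvPolynomial.eval e).mapMatrix M0 = 1 := by
      ext i j
      simp only [RingHom.mapMatrix_apply, Matrix.map_apply, M0, Matrix.of_apply]
      by_cases hij : i = j
      · subst hij
        rw [if_pos (Finset.mem_inter.1 (hmem i)).1, MvPolynomial.eval_X, Matrix.one_apply_eq]
        simp only [e]
        rw [if_pos ⟨i, rfl⟩]
      · rw [Matrix.one_apply_ne hij]
        by_cases hN : m j ∈ N i.1
        · rw [if_pos hN, MvPolynomial.eval_X]
          simp only [e]
          rw [if_neg]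
          rintro ⟨k, hk⟩
          rw [Prod.mk.injEq] at hk
          have hki : i = k := Subtype.ext hk.1
          have hkj : j = k := hm hk.2
          exact hij (hki.trans hkj.symm)
        · rw [if_neg hN, map_zero]
    rw [h2, Matrix.det_one] at h1
    exact one_ne_zero h1
  let M : Matrix {z // z ∈ D} {z // z ∈ D} (GK V) :=
    Matrix.of fun i j => gen N i.1 (m j)
  have hM : M = (algebraMap (MvPolynomial (V × V) ℚ) (GK V)).mapMatrix M0 := by
    ext i j
    simp only [M, M0, gen, Matrix.of_apply, RingHom.mapMatrix_apply, Matrix.map_apply]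
    split_ifs
    · rfl
    · rw [map_zero]
  have hdet : M.det ≠ 0 := by
    rw [hM, ← RingHom.map_det]
    exact (map_ne_zero_iff _ (IsFractionRing.injective (MvPolynomial (V × V) ℚ) (GK V))).2 hdet0
  have hv : Matrix.vecMul (fun i : {z // z ∈ D} => f i.1) M = 0 := by
    ext j
    simp only [Matrix.vecMul, dotProduct, Pi.zero_apply, M, Matrix.of_apply]
    rw [← h (m j) (Finset.mem_inter.1 (hmem j)).2]
    exact Finset.sum_coe_sort D (fun z => f z * gen N z (m j))
  have h0 := Matrix.eq_zero_of_vecMul_eq_zero hdet hv
  intro z hz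
  exact congrFun h0 ⟨z, hz⟩

/-- The rank count. -/
theorem card_add_card_le (N : V → Finset V) (P Q Z Z' : Finset (V × V))
    (key : ∀ z z' y y', (z', y) ∈ P → (z, y') ∈ Q → z' ∈ N z → y' ∈ N y →
      (z, y) ∈ Z ∧ (z', y') ∈ Z')
    (hQ : ∀ y', ∀ D : Finset V, (∀ z ∈ D, (z, y') ∈ Q) →
      D.card ≤ ((D.biUnion N).filter fun z' => (z', y') ∈ Z').card)
    (hP : ∀ z', ∀ D : Finset V, (∀ y ∈ D, (z', y) ∈ P) →
      D.card ≤ ((D.biUnion N).filter fun y' => (z', y') ∈ Z').card) :
    P.card + Q.card ≤ Z.card + Z'.card := by
  classical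
  let PHI : Matrix ({x // x ∈ Z} ⊕ {x // x ∈ Z'}) {x // x ∈ Q} (GK V) :=
    Matrix.of fun a q => Sum.elim
      (fun a : {x // x ∈ Z} => if a.1.1 = q.1.1 then gen N a.1.2 q.1.2 else 0)
      (fun a : {x // x ∈ Z'} => if a.1.2 = q.1.2 then gen N q.1.1 a.1.1 else 0) a
  let PSI : Matrix {x // x ∈ P} ({x // x ∈ Z} ⊕ {x // x ∈ Z'}) (GK V) :=
    Matrix.of fun p a => Sum.elim
      (fun a : {x // x ∈ Z} => if a.1.2 = p.1.2 then gen N a.1.1 p.1.1 else 0)
      (fun a : {x // x ∈ Z'} => if a.1.1 = p.1.1 then - gen N p.1.2 a.1.2 else 0) a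
  have hmul : PSI * PHI = 0 := by
    ext p q
    obtain ⟨⟨z', y⟩, hp⟩ := p
    obtain ⟨⟨z, y'⟩, hq⟩ := q
    rw [Matrix.mul_apply, Fintype.sum_sum_type, Matrix.zero_apply]
    simp only [PSI, PHI, Matrix.of_apply, Sum.elim_inl, Sum.elim_inr]
    have h1 : ∑ a : {x // x ∈ Z}, (if a.1.2 = y then gen N a.1.1 z' else 0) *
        (if a.1.1 = z then gen N a.1.2 y' else 0) =
        ∑ a ∈ Z, (if a.2 = y then gen N a.1 z' else 0) * (if a.1 = z then gen N a.2 y' else 0) :=
      Finset.sum_coe_sort Z (fun a => (if a.2 = y then gen N a.1 z' else 0) *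
        (if a.1 = z then gen N a.2 y' else 0))
    have h2 : ∑ a : {x // x ∈ Z'}, (if a.1.1 = z' then - gen N y a.1.2 else 0) *
        (if a.1.2 = y' then gen N z a.1.1 else 0) =
        ∑ a ∈ Z', (if a.1 = z' then - gen N y a.2 else 0) * (if a.2 = y' then gen N z a.1 else 0) :=
      Finset.sum_coe_sort Z' (fun a => (if a.1 = z' then - gen N y a.2 else 0) *
        (if a.2 = y' then gen N z a.1 else 0))
    rw [h1, h2]
    by_cases hz : z' ∈ N z
    · by_cases hy : y' ∈ N y
      · obtain ⟨hZ, hZ'⟩ := key z z' y y' hp hq hz hy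
        rw [Finset.sum_eq_single (z, y), Finset.sum_eq_single (z', y')]
        · simp only [if_true]
          ring
        · rintro ⟨a, b⟩ _ hab
          by_cases ha : a = z'
          · have hb : b ≠ y' := fun hb => hab (by rw [ha, hb])
            simp [hb]
          · simp [ha]
        · intro hn
          exact absurd hZ' hn
        · rintro ⟨a, b⟩ _ hab
          by_cases ha : a = z
          · have hb : b ≠ y := fun hb => hab (by rw [ha, hb])
            simp [hb]
          · simp [ha]
        · intro hn
          exact absurd hZ hn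
      · have hg : gen N y y' = 0 := by
          rw [gen, if_neg hy]
        rw [Finset.sum_eq_zero, Finset.sum_eq_zero, add_zero]
        · rintro ⟨a, b⟩ _
          by_cases hb : b = y'
          · subst hb
            simp [hg]
          · simp [hb]
        · rintro ⟨a, b⟩ _
          by_cases hb : b = y
          · subst hb
            simp [hg]
          · simp [hb]
    · have hg : gen N z z' = 0 := by
        rw [gen, if_neg hz]
      rw [Finset.sum_eq_zero, Finset.sum_eq_zero, add_zero]
      · rintro ⟨a, b⟩ _
        by_cases ha : a = z'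
        · subst ha
          simp [hg]
        · simp [ha]
      · rintro ⟨a, b⟩ _
        by_cases ha : a = z
        · subst ha
          simp [hg]
        · simp [ha]
  have hrank := Matrix.rank_add_rank_le_card_of_mul_eq_zero hmul
  -- extension by zero
  have hPSI : PSI.rank = P.card := by
    rw [LinearIndependent.rank_matrix, Fintype.card_coe]
    rw [Fintype.linearIndependent_iff]
    intro c hc
    let c' : V × V → GK V := fun x => if h : x ∈ P then c ⟨x, h⟩ else 0
    have hc' : ∀ x : {x // x ∈ P}, c x = c' x.1 := by
      intro x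
      simp only [c']
      rw [dif_pos x.2]
    rintro ⟨⟨z', y⟩, hzy⟩
    rw [hc']
    refine hall_inj N (univ.filter fun y => (z', y) ∈ P) (univ.filter fun y' => (z', y') ∈ Z')
      ?_ (fun y => c' (z', y)) ?_ y (by simpa using hzy)
    · intro D' hD'
      refine (hP z' D' fun y hy => by simpa using hD' hy).trans (Finset.card_le_card ?_)
      intro x hx
      simp only [Finset.mem_filter, Finset.mem_inter, Finset.mem_univ, true_and] at hx ⊢
      exact hx
    · intro t ht
      have ht' : (z', t) ∈ Z' := by simpa using ht
      have h1 := congrFun hc (Sum.inr ⟨(z', t), ht'⟩)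
      simp only [Finset.sum_apply, Pi.smul_apply, smul_eq_mul, Pi.zero_apply, Matrix.row,
        PSI, Matrix.of_apply, Sum.elim_inr] at h1
      have h2 : ∑ x : {x // x ∈ P}, c x * (if z' = x.1.1 then - gen N x.1.2 t else 0) =
          ∑ x ∈ P, c' x * (if z' = x.1 then - gen N x.2 t else 0) := by
        rw [← Finset.sum_coe_sort P (fun x => c' x * (if z' = x.1 then - gen N x.2 t else 0))]
        exact Finset.sum_congr rfl fun x _ => by rw [hc']
      rw [h2] at h1
      have h3 : ∑ x ∈ P, c' x * (if z' = x.1 then - gen N x.2 t else 0) =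
          ∑ x : V × V, c' x * (if z' = x.1 then - gen N x.2 t else 0) := by
        apply Finset.sum_subset (Finset.subset_univ _)
        intro x _ hx
        simp only [c']
        rw [dif_neg hx, zero_mul]
      rw [h3, Fintype.sum_prod_type] at h1
      rw [Finset.sum_eq_single z'] at h1
      · simp only [if_true, mul_neg, Finset.sum_neg_distrib, neg_eq_zero] at h1
        rw [← h1, Finset.sum_filter]
        refine Finset.sum_congr rfl fun x _ => ?_
        split_ifs with hx
        · rfl
        · simp only [c']
          rw [dif_neg hx, zero_mul]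
      · intro b _ hb
        refine Finset.sum_eq_zero fun x _ => ?_
        rw [if_neg (fun h => hb h.symm), mul_zero]
      · intro hn
        exact absurd (Finset.mem_univ _) hn
  have hPHI : PHI.rank = Q.card := by
    rw [← Matrix.rank_transpose, LinearIndependent.rank_matrix, Fintype.card_coe]
    rw [Fintype.linearIndependent_iff]
    intro c hc
    let c' : V × V → GK V := fun x => if h : x ∈ Q then c ⟨x, h⟩ else 0
    have hc' : ∀ x : {x // x ∈ Q}, c x = c' x.1 := by
      intro x
      simp only [c']
      rw [dif_pos x.2]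
    rintro ⟨⟨z, y'⟩, hzy⟩
    rw [hc']
    refine hall_inj N (univ.filter fun z => (z, y') ∈ Q) (univ.filter fun z' => (z', y') ∈ Z')
      ?_ (fun z => c' (z, y')) ?_ z (by simpa using hzy)
    · intro D' hD'
      refine (hQ y' D' fun y hy => by simpa using hD' hy).trans (Finset.card_le_card ?_)
      intro x hx
      simp only [Finset.mem_filter, Finset.mem_inter, Finset.mem_univ, true_and] at hx ⊢
      exact hx
    · intro t ht
      have ht' : (t, y') ∈ Z' := by simpa using ht
      have h1 := congrFun hc (Sum.inr ⟨(t, y'), ht'⟩)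
      simp only [Finset.sum_apply, Pi.smul_apply, smul_eq_mul, Pi.zero_apply, Matrix.row,
        PHI, Matrix.transpose_apply, Matrix.of_apply, Sum.elim_inr] at h1
      have h2 : ∑ x : {x // x ∈ Q}, c x * (if y' = x.1.2 then gen N x.1.1 t else 0) =
          ∑ x ∈ Q, c' x * (if y' = x.2 then gen N x.1 t else 0) := by
        rw [← Finset.sum_coe_sort Q (fun x => c' x * (if y' = x.2 then gen N x.1 t else 0))]
        exact Finset.sum_congr rfl fun x _ => by rw [hc']
      rw [h2] at h1
      have h3 : ∑ x ∈ Q, c' x * (if y' = x.2 then gen N x.1 t else 0) =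
          ∑ x : V × V, c' x * (if y' = x.2 then gen N x.1 t else 0) := by
        apply Finset.sum_subset (Finset.subset_univ _)
        intro x _ hx
        simp only [c']
        rw [dif_neg hx, zero_mul]
      rw [h3, Fintype.sum_prod_type_right] at h1
      rw [Finset.sum_eq_single y'] at h1
      · simp only [if_true] at h1
        rw [← h1, Finset.sum_filter]
        refine Finset.sum_congr rfl fun x _ => ?_
        split_ifs with hx
        · rfl
        · simp only [c']
          rw [dif_neg hx, zero_mul]
      · intro b _ hb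
        refine Finset.sum_eq_zero fun x _ => ?_
        rw [if_neg (fun h => hb h.symm), mul_zero]
      · intro hn
        exact absurd (Finset.mem_univ _) hn
  rw [hPSI, hPHI] at hrank
  simpa [Fintype.card_sum, Fintype.card_coe] using hrank

end Vale.Agent.P038.H504
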